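import Vale.Agent.P159.TM.H22.Mono
import Vale.Agent.P159.TM.H871.E1
import Vale.Agent.P159.T1.H897.Fkg
import Vale.Agent.P159.T1.H934.Markov

/-!
The weights `∏ wI (J e) (D h e) · exp (- ∑ m h² / 2)` with masses `m > 0` are Ginibre weights, and
they increase with `J`.  The inequality `Gin` of `H871` for gradient weights.
-/

open MeasureTheory Filter Topology

namespace Vale.Agent.P159.TM.H22

open Vale.Agent.P159 Vale.Agent.P159.H353 Vale.Agent.P159.R2.H254 Vale.Agent.P159.T1.H934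

section base

variable {V : Type} [Fintype V] {E : Type} [Fintype E]

/-- Gaussian factor -/
noncomputable def gm (m : V → ℝ) (h : V → ℤ) : ℝ := Real.exp (-(∑ v, m v * (h v : ℝ) ^ 2) / 2)

/-- the weight with the couplings `J` and the masses `m` -/
noncomputable def wm (D : (V → ℤ) → E → ℤ) (J : E → ℝ) (m : V → ℝ) (h : V → ℤ) : ℝ :=
  W D J h * gm m h

lemma gm_pos (m : V → ℝ) (h : V → ℤ) : 0 < gm m h := Real.exp_pos _

lemma summable_gauss1 {m : ℝ} (hm : 0 < m) (t : ℝ) :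
    Summable fun n : ℤ => Real.exp (-(m * (n : ℝ) ^ 2) / 2 + t * |(n : ℝ)|) := by
  refine Summable.of_nonneg_of_le (fun _ => (Real.exp_pos _).le) (fun n => ?_)
    ((H871.summable_exp_abs one_pos).mul_left (Real.exp ((|t| + 1) ^ 2 / (2 * m))))
  rw [← Real.exp_add]
  apply Real.exp_le_exp.2
  have h1 : t * |(n : ℝ)| ≤ |t| * |(n : ℝ)| :=
    mul_le_mul_of_nonneg_right (le_abs_self _) (abs_nonneg _)
  have h2 : (|t| + 1) * |(n : ℝ)| - m * (n : ℝ) ^ 2 / 2 ≤ (|t| + 1) ^ 2 / (2 * m) := by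
    rw [le_div_iff₀ (by positivity)]
    have h3 := sq_nonneg (m * |(n : ℝ)| - (|t| + 1))
    rw [← sq_abs (n : ℝ)]
    nlinarith
  linarith

lemma summable_gm {m : V → ℝ} (hm : ∀ v, 0 < m v) (t : ℝ) :
    Summable fun h : V → ℤ => gm m h * Real.exp (t * nn h) := by
  have h1 := H871.summable_pi_prod (V := V)
    (g := fun v n => Real.exp (-(m v * (n : ℝ) ^ 2) / 2 + t * |(n : ℝ)|))
    (fun _ _ => (Real.exp_pos _).le) fun v => summable_gauss1 (hm v) t
  refine h1.congr fun h => ?_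
  rw [← Real.exp_sum, gm, ← Real.exp_add]
  congr 1
  unfold nn
  rw [Finset.sum_add_distrib, ← Finset.mul_sum, ← Finset.sum_div, Finset.sum_neg_distrib]

lemma W_le {D : (V → ℤ) → E → ℤ} {J : E → ℝ} (hJ : ∀ e, 0 ≤ J e) (h : V → ℤ) :
    W D J h ≤ ∏ e, wI (J e) 0 :=
  Finset.prod_le_prod (fun e _ => wI_nonneg (hJ e) _) fun e _ =>
    wI_anti (hJ e) (by rw [abs_zero]; exact abs_nonneg _)

theorem sg_wm (D : (V → ℤ) →+ (E → ℤ)) {J : E → ℝ} (hJ : ∀ e, 0 ≤ J e) {m : V → ℝ}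
    (hm : ∀ v, 0 < m v) : SG (wm D J m) where
  nonneg h := mul_nonneg (W_nonneg hJ h) (gm_pos m h).le
  even h := by
    unfold wm gm
    have h1 : W D J (-h) = W D J h := W_neg D J h
    rw [h1]
    congr 3
    refine congrArg _ (Finset.sum_congr rfl fun v _ => ?_)
    rw [Pi.neg_apply, Int.cast_neg]
    ring
  mom t := by
    refine Summable.of_nonneg_of_le
      (fun h => mul_nonneg (mul_nonneg (W_nonneg hJ h) (gm_pos m h).le) (Real.exp_pos _).le)
      (fun h => ?_) ((summable_gm hm t).mul_left (∏ e, wI (J e) 0))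
    unfold wm
    rw [mul_assoc]
    exact mul_le_mul_of_nonneg_right (W_le hJ h)
      (mul_nonneg (gm_pos m h).le (Real.exp_pos _).le)

lemma two_tors {V : Type} (h : V → ℤ) (hh : h + h = 0) : h = 0 := by
  funext v
  have := congrFun hh v
  simp only [Pi.add_apply, Pi.zero_apply] at this ⊢
  omega

lemma gm_rot (m : V → ℝ) (x y : V → ℤ) :
    gm m x * gm m y = gm ((1 / 2 : ℝ) • m) (x + y) * gm ((1 / 2 : ℝ) • m) (x - y) := by
  unfold gm
  rw [← Real.exp_add, ← Real.exp_add]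
  congr 1
  rw [← add_div, ← add_div, ← neg_add, ← neg_add, ← Finset.sum_add_distrib,
    ← Finset.sum_add_distrib]
  refine congrArg (fun z => -z / 2) (Finset.sum_congr rfl fun v _ => ?_)
  simp only [Pi.smul_apply, smul_eq_mul, Pi.add_apply, Pi.sub_apply, Int.cast_add, Int.cast_sub]
  ring

/-- **The weights increase with the couplings.** -/
theorem gle_wm (D : (V → ℤ) →+ (E → ℤ)) {J K : E → ℝ} (hJ : ∀ e, 0 ≤ J e) (hK : ∀ e, 0 ≤ K e)
    {m : V → ℝ} (hm : ∀ v, 0 < m v) : Gle (wm D J m) (wm D (J + K) m) := by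
  intro g hg
  have hJK : ∀ e, 0 ≤ (J + K) e := fun e => add_nonneg (hJ e) (hK e)
  have s1 := sg_wm D hJ hm
  have s2 := sg_wm D hJK hm
  have hm2 : ∀ v, 0 < ((1 / 2 : ℝ) • m) v := fun v => by
    have := hm v
    simp only [Pi.smul_apply, smul_eq_mul]
    linarith
  set k : (V → ℤ) → ℝ := fun h => g h * gm ((1 / 2 : ℝ) • m) h with hk
  have hks : Summable fun h => |k h| := by
    obtain ⟨C, t, hC, ht, hb⟩ := hg
    refine Summable.of_nonneg_of_le (fun _ => abs_nonneg _) (fun h => ?_)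
      ((summable_gm hm2 t).mul_left C)
    simp only [hk]
    rw [abs_mul, abs_of_pos (gm_pos _ _)]
    calc |g h| * gm ((1 / 2 : ℝ) • m) h ≤ (C * Real.exp (t * nn h)) * gm ((1 / 2 : ℝ) • m) h :=
          mul_le_mul_of_nonneg_right (hb h) (gm_pos _ _).le
      _ = _ := by ring
  have key : ∀ σ : ℝ, |σ| ≤ 1 →
      0 ≤ BB (wm D (J + K) m) (wm D J m) g g + σ * BB (wm D J m) (wm D (J + K) m) g g := by
    intro σ hσ
    have h1 := dup_sum (H := V → ℤ) two_tors D hJ hK hks hσ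
    have h2 := (BB_sum s2 s1 hg hg).tsum_add ((BB_sum s1 s2 hg hg).mul_left σ)
    rw [tsum_mul_left] at h2
    unfold BB
    rw [← h2]
    refine h1.trans (le_of_eq (tsum_congr fun x => ?_))
    have h3 := gm_rot m x.1 x.2
    unfold wm
    simp only [hk]
    calc _ = (W D (J + K) x.1 * W D J x.2 + σ * (W D J x.1 * W D (J + K) x.2)) *
          (g (x.1 + x.2) * g (x.1 - x.2)) *
          (gm ((1 / 2 : ℝ) • m) (x.1 + x.2) * gm ((1 / 2 : ℝ) • m) (x.1 - x.2)) := by ring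
      _ = _ := by rw [← h3]; ring
  have h4 := key 1 (by norm_num)
  have h5 := key (-1) (by norm_num)
  rw [abs_le]
  constructor <;> linarith

theorem gle_self (D : (V → ℤ) →+ (E → ℤ)) {J : E → ℝ} (hJ : ∀ e, 0 ≤ J e)
    {m : V → ℝ} (hm : ∀ v, 0 < m v) : Gle (wm D J m) (wm D J m) := by
  have h := gle_wm D hJ (K := 0) (fun _ => le_rfl) hm
  rwa [add_zero] at h

/-- the partition function of `H871` in terms of tilts -/
lemma Z_eq_MM (D : (V → ℤ) → E → ℤ) (J : E → ℝ) (m f : V → ℝ) :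
    H871.Z (W D J) m f = Real.exp (-(∑ v, m v * f v ^ 2) / 2) *
      MM (wm D J m) fun h => Real.exp (lin (fun v => m v * f v) h) := by
  unfold H871.Z MM wm gm lin H871.gs
  rw [← tsum_mul_left]
  refine tsum_congr fun h => ?_
  have e : -∑ x, m x / 2 * ((h x : ℝ) - f x) ^ 2 = -(∑ v, m v * f v ^ 2) / 2 +
      (-(∑ v, m v * (h v : ℝ) ^ 2) / 2 + ∑ v, m v * f v * (h v : ℝ)) := by
    rw [← sub_eq_zero]
    have : ∀ v : V, m v / 2 * ((h v : ℝ) - f v) ^ 2 =
        (m v * f v ^ 2) * (1 / 2) + (m v * (h v : ℝ) ^ 2) * (1 / 2) - m v * f v * (h v : ℝ) :=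
      fun v => by ring
    simp only [this]
    rw [Finset.sum_sub_distrib, Finset.sum_add_distrib, ← Finset.sum_mul, ← Finset.sum_mul]
    ring
  rw [e, Real.exp_add, Real.exp_add]
  ring

/-- **`Gin`** for the weights `∏ wI`. -/
theorem gin_W (D : (V → ℤ) →+ (E → ℤ)) {J : E → ℝ} (hJ : ∀ e, 0 ≤ J e) {m : V → ℝ}
    (hm : ∀ v, 0 < m v) : H871.Gin (W D J) m := by
  intro f g
  have hw := sg_wm D hJ hm
  have h := four_m hw (gle_self D hJ hm) (P := Empty) (fun p => p.elim)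
    (fun v => m v * f v) (fun v => m v * g v) (fun p => p.elim) (fun p => p.elim)
  have e : ∀ (ρ : V → ℝ) (ζ : Empty → ℤ), Zm (wm D J m) (fun p => p.elim) ρ ζ =
      MM (wm D J m) fun h => Real.exp (lin ρ h) := by
    intro ρ ζ
    unfold Zm MM
    refine tsum_congr fun h => ?_
    unfold El
    rw [if_pos fun p => p.elim]
  rw [e, e, e, e, e] at h
  have e1 : ((fun v => m v * f v) + fun v => m v * g v) = fun v => m v * (f + g) v := by
    funext v; simp only [Pi.add_apply]; ring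
  have e2 : ((fun v => m v * f v) - fun v => m v * g v) = fun v => m v * (f - g) v := by
    funext v; simp only [Pi.sub_apply]; ring
  have e0 : (0 : V → ℝ) = fun v => m v * (0 : V → ℝ) v := by
    funext v; simp
  rw [e1, e2, e0] at h
  rw [Z_eq_MM, Z_eq_MM, Z_eq_MM, Z_eq_MM, Z_eq_MM]
  have e3 : Real.exp (-(∑ v, m v * (0 : V → ℝ) v ^ 2) / 2) = 1 := by simp
  rw [e3, one_mul]
  set F := MM (wm D J m) fun h => Real.exp (lin (fun v => m v * f v) h)
  set G := MM (wm D J m) fun h => Real.exp (lin (fun v => m v * g v) h)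
  set P := MM (wm D J m) fun h => Real.exp (lin (fun v => m v * (f + g) v) h)
  set Q := MM (wm D J m) fun h => Real.exp (lin (fun v => m v * (f - g) v) h)
  set O := MM (wm D J m) fun h => Real.exp (lin (fun v => m v * (0 : V → ℝ) v) h)
  have e4 : Real.exp (-(∑ v, m v * f v ^ 2) / 2) ^ 2 * Real.exp (-(∑ v, m v * g v ^ 2) / 2) ^ 2 =
      Real.exp (-(∑ v, m v * (f + g) v ^ 2) / 2) * Real.exp (-(∑ v, m v * (f - g) v ^ 2) / 2) := by
    rw [← Real.exp_nat_mul, ← Real.exp_nat_mul, ← Real.exp_add, ← Real.exp_add]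
    congr 1
    have : (∑ v, m v * (f + g) v ^ 2) + (∑ v, m v * (f - g) v ^ 2) =
        2 * (∑ v, m v * f v ^ 2) + 2 * ∑ v, m v * g v ^ 2 := by
      rw [← Finset.sum_add_distrib, Finset.mul_sum, Finset.mul_sum, ← Finset.sum_add_distrib]
      refine Finset.sum_congr rfl fun v _ => ?_
      simp only [Pi.add_apply, Pi.sub_apply]
      ring
    push_cast
    linarith
  calc (Real.exp (-(∑ v, m v * f v ^ 2) / 2) * F) ^ 2 *
        (Real.exp (-(∑ v, m v * g v ^ 2) / 2) * G) ^ 2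
      = (Real.exp (-(∑ v, m v * f v ^ 2) / 2) ^ 2 *
        Real.exp (-(∑ v, m v * g v ^ 2) / 2) ^ 2) * (F * G) ^ 2 := by ring
    _ ≤ (Real.exp (-(∑ v, m v * f v ^ 2) / 2) ^ 2 *
        Real.exp (-(∑ v, m v * g v ^ 2) / 2) ^ 2) * (P * Q * O ^ 2) :=
        mul_le_mul_of_nonneg_left h (by positivity)
    _ = _ := by rw [e4]; ring

/-- the gradient weights of `H897` -/
lemma Wk_eq_W (s t : E → V) (J : E → ℝ) :
    Vale.Agent.P159.T1.H897.Wk s t (fun e => wI (J e)) = W (grd s t) J := by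
  funext h
  rfl

/-- **`Gin`** for the gradient weights. -/
theorem gin_Wk (s t : E → V) {J : E → ℝ} (hJ : ∀ e, 0 ≤ J e) {m : V → ℝ} (hm : ∀ v, 0 < m v) :
    H871.Gin (Vale.Agent.P159.T1.H897.Wk s t (fun e => wI (J e))) m := by
  rw [Wk_eq_W]
  exact gin_W (grd s t) hJ hm

end base

end Vale.Agent.P159.TM.H22
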