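import Vale.Agent.P159.T1.H934.Cosh

/-!
Duplication inequality for integer heights without injectivity of the gradient: the summability
comes from the function `g` (for instance from the masses).
-/

open MeasureTheory Filter Topology

namespace Vale.Agent.P159.TM.H22

open Vale.Agent.P159 Vale.Agent.P159.H353 Vale.Agent.P159.R2.H254 Vale.Agent.P159.T1.H934

lemma phi_le (a k : ℕ) (p : ℤ) : |phi a k p| ≤ 2 ^ (k + a) :=
  ((phi_abs a k).1.le_tsum p fun _ _ => abs_nonneg _).trans (phi_abs a k).2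

section dup

variable {H : Type} [AddCommGroup H] {E : Type} [Fintype E]

/-- bound of one term of the expansion -/
noncomputable def bt (J K : E → ℝ) (i : E → ℕ × ℕ) : ℝ :=
  ∏ e, cc (J e) (K e) (i e) * 4 ^ ((i e).1 + (i e).2)

lemma bt_nonneg {J K : E → ℝ} (hJ : ∀ e, 0 ≤ J e) (hK : ∀ e, 0 ≤ K e) (i : E → ℕ × ℕ) :
    0 ≤ bt J K i :=
  Finset.prod_nonneg fun e _ => mul_nonneg (cc_nonneg (hJ e) (hK e) _) (by positivity)

lemma bt_summable {J K : E → ℝ} (hJ : ∀ e, 0 ≤ J e) (hK : ∀ e, 0 ≤ K e) :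
    Summable (bt J K) := by
  have h := (prod_real (a := fun e i => cc (J e) (K e) i * 4 ^ (i.1 + i.2))
    (fun e => (summable_cc4 (hJ e) (hK e)).abs)).1
  refine h.congr fun i => ?_
  exact abs_of_nonneg (bt_nonneg hJ hK i)

omit [AddCommGroup H] in
lemma tm_le {J K : E → ℝ} (hJ : ∀ e, 0 ≤ J e) (hK : ∀ e, 0 ≤ K e) (D : H → E → ℤ)
    (i : E → ℕ × ℕ) (x : H × H) : |tm D J K i x| ≤ bt J K i := by
  unfold tm bt
  rw [Finset.abs_prod]
  refine Finset.prod_le_prod (fun _ _ => abs_nonneg _) fun e _ => ?_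
  unfold kt
  simp only
  rw [abs_mul, abs_mul, abs_of_nonneg (cc_nonneg (hJ e) (hK e) _)]
  refine mul_le_mul_of_nonneg_left ?_ (cc_nonneg (hJ e) (hK e) _)
  have h1 := phi_le (i e).2 (i e).1 (D x.1 e + D x.2 e)
  have h2 := phi_le (i e).2 (i e).1 (D x.1 e - D x.2 e)
  calc |phi (i e).2 (i e).1 (D x.1 e + D x.2 e)| * |phi (i e).2 (i e).1 (D x.1 e - D x.2 e)|
      ≤ 2 ^ ((i e).1 + (i e).2) * 2 ^ ((i e).1 + (i e).2) :=
        mul_le_mul h1 h2 (abs_nonneg _) (by positivity)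
    _ = 4 ^ ((i e).1 + (i e).2) := by rw [← mul_pow]; norm_num

omit [AddCommGroup H] in
lemma tm_summable_i {J K : E → ℝ} (hJ : ∀ e, 0 ≤ J e) (hK : ∀ e, 0 ≤ K e) (D : H → E → ℤ)
    (x : H × H) : Summable fun i => tm D J K i x :=
  Summable.of_norm_bounded (bt_summable hJ hK) fun i => tm_le hJ hK D i x

lemma pair_summable (h2 : ∀ h : H, h + h = 0 → h = 0) {g : H → ℝ}
    (hg : Summable fun h => |g h|) :
    Summable fun x : H × H => |g (x.1 + x.2)| * |g (x.1 - x.2)| := by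
  have h1 : Summable fun x : H × H => |g x.1| * |g x.2| :=
    hg.mul_of_nonneg hg (fun _ => abs_nonneg _) (fun _ => abs_nonneg _)
  have h3 := h1.comp_injective (rot_inj h2)
  refine h3.congr fun x => ?_
  simp only [Function.comp, rot]

/-- **Duplication inequality**, summability from `g`. -/
theorem dup_sum (h2 : ∀ h : H, h + h = 0 → h = 0) (D : H →+ (E → ℤ)) {J K : E → ℝ}
    (hJ : ∀ e, 0 ≤ J e) (hK : ∀ e, 0 ≤ K e) {g : H → ℝ} (hg : Summable fun h => |g h|)
    {σ : ℝ} (hσ : |σ| ≤ 1) :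
    0 ≤ ∑' x : H × H, (W D (J + K) x.1 * W D J x.2 + σ * (W D J x.1 * W D (J + K) x.2)) *
      (g (x.1 + x.2) * g (x.1 - x.2)) := by
  have hb := bt_summable hJ hK
  have hp := pair_summable h2 hg
  have hsg : ∀ i : E → ℕ × ℕ, |σ * sg i| ≤ 1 := fun i => by
    rw [abs_mul, abs_sg, mul_one]; exact hσ
  set F : (E → ℕ × ℕ) × (H × H) → ℝ := fun y =>
    (1 + σ * sg y.1) * tm D J K y.1 y.2 * (g (y.2.1 + y.2.2) * g (y.2.1 - y.2.2)) with hF
  have hFs : Summable F := by
    have h1 : Summable fun y : (E → ℕ × ℕ) × (H × H) =>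
        bt J K y.1 * (|g (y.2.1 + y.2.2)| * |g (y.2.1 - y.2.2)|) :=
      hb.mul_of_nonneg hp (fun i => bt_nonneg hJ hK i) (fun _ => by positivity)
    refine Summable.of_norm_bounded (h1.mul_left 2) fun y => ?_
    simp only [hF]
    rw [Real.norm_eq_abs, abs_mul, abs_mul, abs_mul]
    have h3 : |1 + σ * sg y.1| ≤ 2 := by
      have := abs_le.1 (hsg y.1)
      rw [abs_le]
      constructor <;> linarith
    calc |1 + σ * sg y.1| * |tm D J K y.1 y.2| * (|g (y.2.1 + y.2.2)| * |g (y.2.1 - y.2.2)|)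
        ≤ 2 * bt J K y.1 * (|g (y.2.1 + y.2.2)| * |g (y.2.1 - y.2.2)|) := by
          refine mul_le_mul_of_nonneg_right ?_ (by positivity)
          exact mul_le_mul h3 (tm_le hJ hK D y.1 y.2) (abs_nonneg _) zero_le_two
      _ = 2 * (bt J K y.1 * (|g (y.2.1 + y.2.2)| * |g (y.2.1 - y.2.2)|)) := by ring
  have e1 : ∀ x : H × H, ∑' i : E → ℕ × ℕ, F (i, x) =
      (W D (J + K) x.1 * W D J x.2 + σ * (W D J x.1 * W D (J + K) x.2)) *
      (g (x.1 + x.2) * g (x.1 - x.2)) := by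
    intro x
    simp only [hF]
    rw [tsum_mul_right]
    congr 1
    have hsx : Summable fun i : E → ℕ × ℕ => tm D J K i x := tm_summable_i hJ hK D x
    have hsx' : Summable fun i : E → ℕ × ℕ => sg i * tm D J K i x := by
      refine Summable.of_norm_bounded hsx.abs fun i => ?_
      rw [Real.norm_eq_abs, abs_mul, abs_sg, one_mul]
    rw [← tm_sum D hJ hK x, ← tm_sum_swap D hJ hK x, ← tsum_mul_left,
      ← hsx.tsum_add (hsx'.mul_left σ)]
    exact tsum_congr fun i => by ring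
  have e2 : ∑' x : H × H, (W D (J + K) x.1 * W D J x.2 + σ * (W D J x.1 * W D (J + K) x.2)) *
      (g (x.1 + x.2) * g (x.1 - x.2)) = ∑' i : E → ℕ × ℕ, ∑' x : H × H, F (i, x) := by
    rw [← tsum_congr e1]
    exact Summable.tsum_comm (f := fun i x => F (i, x)) hFs
  rw [e2]
  refine tsum_nonneg fun i => ?_
  set f : H → ℝ := fun h => (∏ e, phi (i e).2 (i e).1 (D h e)) * g h with hf
  have hfs : Summable fun h => |f h| := by
    refine Summable.of_nonneg_of_le (fun _ => abs_nonneg _) (fun h => ?_)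
      (hg.mul_left (∏ e, (2 : ℝ) ^ ((i e).1 + (i e).2)))
    simp only [hf]
    rw [abs_mul, Finset.abs_prod]
    refine mul_le_mul_of_nonneg_right ?_ (abs_nonneg _)
    exact Finset.prod_le_prod (fun _ _ => abs_nonneg _) fun e _ => phi_le _ _ _
  have e3 : ∀ x : H × H, F (i, x) = ((1 + σ * sg i) * ∏ e, cc (J e) (K e) (i e)) *
      (f (x.1 + x.2) * f (x.1 - x.2)) := by
    intro x
    simp only [hF, hf]
    unfold tm kt
    simp only
    rw [Finset.prod_mul_distrib, Finset.prod_mul_distrib, map_add, map_sub]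
    simp only [Pi.add_apply, Pi.sub_apply]
    ring
  rw [tsum_congr e3, tsum_mul_left]
  refine mul_nonneg (mul_nonneg ?_ (Finset.prod_nonneg fun e _ => cc_nonneg (hJ e) (hK e) _))
    (sum_square h2 hfs)
  have := abs_le.1 (hsg i)
  linarith

end dup

end Vale.Agent.P159.TM.H22
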