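import Vale.Agent.P159.TM.H22.Dup

/-!
Ginibre classes of weights of integer heights on a finite set of sites.  `SG w`: nonnegative, even,
all exponential moments.  `Gle w w'`: `|∑ w(x) w'(y) g(x+y) g(x-y)| ≤ ∑ w'(x) w(y) g(x+y) g(x-y)`
for every `g` of exponential growth; `Gle w w` is the positivity used by Ginibre.
-/

open MeasureTheory Filter Topology

namespace Vale.Agent.P159.TM.H22

open Vale.Agent.P159 Vale.Agent.P159.H353 Vale.Agent.P159.R2.H254 Vale.Agent.P159.T1.H934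

section cls

variable {V : Type} [Fintype V]

/-- the sum of the absolute values of the heights -/
noncomputable def nn (h : V → ℤ) : ℝ := ∑ v, |(h v : ℝ)|

lemma nn_nonneg (h : V → ℤ) : 0 ≤ nn h := Finset.sum_nonneg fun _ _ => abs_nonneg _

lemma nn_neg (h : V → ℤ) : nn (-h) = nn h := by
  unfold nn
  exact Finset.sum_congr rfl fun v _ => by rw [Pi.neg_apply, Int.cast_neg, abs_neg]

lemma nn_add (h k : V → ℤ) : nn (h + k) ≤ nn h + nn k := by
  unfold nn
  rw [← Finset.sum_add_distrib]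
  exact Finset.sum_le_sum fun v _ => by rw [Pi.add_apply, Int.cast_add]; exact abs_add_le _ _

lemma nn_sub (h k : V → ℤ) : nn (h - k) ≤ nn h + nn k := by
  rw [sub_eq_add_neg, ← nn_neg k]
  exact nn_add h (-k)

/-- at most exponential growth -/
def Gr (g : (V → ℤ) → ℝ) : Prop :=
  ∃ C t : ℝ, 0 ≤ C ∧ 0 ≤ t ∧ ∀ h, |g h| ≤ C * Real.exp (t * nn h)

lemma Gr.of_bdd {g : (V → ℤ) → ℝ} (C : ℝ) (h : ∀ x, |g x| ≤ C) : Gr g :=
  ⟨C, 0, (abs_nonneg _).trans (h 0), le_rfl, fun x => by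
    rw [zero_mul, Real.exp_zero, mul_one]; exact h x⟩

lemma Gr.const (c : ℝ) : Gr (fun _ : V → ℤ => c) := Gr.of_bdd |c| fun _ => le_rfl

lemma Gr.mono {f g : (V → ℤ) → ℝ} (hg : Gr g) (h : ∀ x, |f x| ≤ |g x|) : Gr f := by
  obtain ⟨C, t, hC, ht, hb⟩ := hg
  exact ⟨C, t, hC, ht, fun x => (h x).trans (hb x)⟩

lemma Gr.mul {f g : (V → ℤ) → ℝ} (hf : Gr f) (hg : Gr g) : Gr fun x => f x * g x := by
  obtain ⟨C, t, hC, ht, hb⟩ := hf
  obtain ⟨C', t', hC', ht', hb'⟩ := hg
  refine ⟨C * C', t + t', by positivity, by positivity, fun x => ?_⟩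
  rw [abs_mul, add_mul, Real.exp_add]
  calc |f x| * |g x| ≤ (C * Real.exp (t * nn x)) * (C' * Real.exp (t' * nn x)) :=
        mul_le_mul (hb x) (hb' x) (abs_nonneg _) (by positivity)
    _ = _ := by ring

lemma Gr.add {f g : (V → ℤ) → ℝ} (hf : Gr f) (hg : Gr g) : Gr fun x => f x + g x := by
  obtain ⟨C, t, hC, ht, hb⟩ := hf
  obtain ⟨C', t', hC', ht', hb'⟩ := hg
  refine ⟨C + C', t + t', by positivity, by positivity, fun x => ?_⟩
  have h1 : Real.exp (t * nn x) ≤ Real.exp ((t + t') * nn x) :=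
    Real.exp_le_exp.2 (mul_le_mul_of_nonneg_right (by linarith) (nn_nonneg x))
  have h2 : Real.exp (t' * nn x) ≤ Real.exp ((t + t') * nn x) :=
    Real.exp_le_exp.2 (mul_le_mul_of_nonneg_right (by linarith) (nn_nonneg x))
  calc |f x + g x| ≤ |f x| + |g x| := abs_add_le _ _
    _ ≤ C * Real.exp (t * nn x) + C' * Real.exp (t' * nn x) := add_le_add (hb x) (hb' x)
    _ ≤ C * Real.exp ((t + t') * nn x) + C' * Real.exp ((t + t') * nn x) :=
        add_le_add (mul_le_mul_of_nonneg_left h1 hC) (mul_le_mul_of_nonneg_left h2 hC')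
    _ = _ := by ring

lemma Gr.const_mul {g : (V → ℤ) → ℝ} (c : ℝ) (hg : Gr g) : Gr fun x => c * g x :=
  (Gr.const c).mul hg

lemma Gr.neg {g : (V → ℤ) → ℝ} (hg : Gr g) : Gr fun x => -g x :=
  hg.mono fun x => by rw [abs_neg]

lemma Gr.sub {f g : (V → ℤ) → ℝ} (hf : Gr f) (hg : Gr g) : Gr fun x => f x - g x := by
  simpa only [sub_eq_add_neg] using hf.add hg.neg

lemma Gr.ite {g : (V → ℤ) → ℝ} (hg : Gr g) (p : (V → ℤ) → Prop) [DecidablePred p] :
    Gr fun x => if p x then g x else 0 :=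
  hg.mono fun x => by
    split_ifs
    · exact le_rfl
    · rw [abs_zero]; exact abs_nonneg _

/-- a linear functional of the heights -/
noncomputable def lin (ρ : V → ℝ) (h : V → ℤ) : ℝ := ∑ v, ρ v * (h v : ℝ)

lemma lin_add (ρ : V → ℝ) (h k : V → ℤ) : lin ρ (h + k) = lin ρ h + lin ρ k := by
  unfold lin
  rw [← Finset.sum_add_distrib]
  exact Finset.sum_congr rfl fun v _ => by rw [Pi.add_apply, Int.cast_add]; ring

lemma lin_neg (ρ : V → ℝ) (h : V → ℤ) : lin ρ (-h) = -lin ρ h := by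
  unfold lin
  rw [← Finset.sum_neg_distrib]
  exact Finset.sum_congr rfl fun v _ => by rw [Pi.neg_apply, Int.cast_neg]; ring

lemma lin_sub (ρ : V → ℝ) (h k : V → ℤ) : lin ρ (h - k) = lin ρ h - lin ρ k := by
  rw [sub_eq_add_neg, lin_add, lin_neg, sub_eq_add_neg]

lemma lin_add_left (ρ σ : V → ℝ) (h : V → ℤ) : lin (ρ + σ) h = lin ρ h + lin σ h := by
  unfold lin
  rw [← Finset.sum_add_distrib]
  exact Finset.sum_congr rfl fun v _ => by rw [Pi.add_apply]; ring

lemma lin_sub_left (ρ σ : V → ℝ) (h : V → ℤ) : lin (ρ - σ) h = lin ρ h - lin σ h := by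
  unfold lin
  rw [← Finset.sum_sub_distrib]
  exact Finset.sum_congr rfl fun v _ => by rw [Pi.sub_apply]; ring

lemma lin_neg_left (ρ : V → ℝ) (h : V → ℤ) : lin (-ρ) h = -lin ρ h := by
  unfold lin
  rw [← Finset.sum_neg_distrib]
  exact Finset.sum_congr rfl fun v _ => by rw [Pi.neg_apply]; ring

lemma lin_smul (c : ℝ) (ρ : V → ℝ) (h : V → ℤ) : lin (c • ρ) h = c * lin ρ h := by
  unfold lin
  rw [Finset.mul_sum]
  exact Finset.sum_congr rfl fun v _ => by rw [Pi.smul_apply, smul_eq_mul]; ring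

lemma lin_zero (h : V → ℤ) : lin (0 : V → ℝ) h = 0 := by
  unfold lin
  simp

lemma abs_lin_le (ρ : V → ℝ) (h : V → ℤ) : |lin ρ h| ≤ (∑ v, |ρ v|) * nn h := by
  unfold lin nn
  refine (Finset.abs_sum_le_sum_abs _ _).trans ?_
  rw [Finset.sum_mul]
  refine Finset.sum_le_sum fun v _ => ?_
  rw [abs_mul]
  refine mul_le_mul_of_nonneg_left ?_ (abs_nonneg _)
  exact Finset.single_le_sum (f := fun v => |(h v : ℝ)|) (fun _ _ => abs_nonneg _)
    (Finset.mem_univ v)

lemma Gr.exp_lin (ρ : V → ℝ) : Gr fun h => Real.exp (lin ρ h) :=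
  ⟨1, ∑ v, |ρ v|, zero_le_one, Finset.sum_nonneg fun _ _ => abs_nonneg _, fun h => by
    rw [abs_of_pos (Real.exp_pos _), one_mul]
    exact Real.exp_le_exp.2 ((le_abs_self _).trans (abs_lin_le ρ h))⟩

lemma Gr.exp_abs_lin (ρ : V → ℝ) : Gr fun h => Real.exp |lin ρ h| :=
  ⟨1, ∑ v, |ρ v|, zero_le_one, Finset.sum_nonneg fun _ _ => abs_nonneg _, fun h => by
    rw [abs_of_pos (Real.exp_pos _), one_mul]
    exact Real.exp_le_exp.2 (abs_lin_le ρ h)⟩

lemma Gr.lin (ρ : V → ℝ) : Gr fun h => lin ρ h :=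
  (Gr.exp_abs_lin ρ).mono fun h => by
    rw [abs_of_pos (Real.exp_pos _)]
    have := Real.add_one_le_exp |H22.lin ρ h|
    linarith

lemma Gr.cosh (ρ : V → ℝ) : Gr fun h => Real.cosh (H22.lin ρ h) :=
  (Gr.exp_abs_lin ρ).mono fun h => by
    rw [abs_of_pos (Real.cosh_pos _), abs_of_pos (Real.exp_pos _), ← Real.cosh_abs, Real.cosh_eq]
    have : Real.exp (-|H22.lin ρ h|) ≤ Real.exp |H22.lin ρ h| :=
      Real.exp_le_exp.2 (by linarith [abs_nonneg (H22.lin ρ h)])
    linarith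

lemma Gr.sinh (ρ : V → ℝ) : Gr fun h => Real.sinh (H22.lin ρ h) :=
  (Gr.cosh ρ).mono fun h => by
    rw [abs_of_pos (Real.cosh_pos _), abs_le]
    have h1 := Real.cosh_sq (H22.lin ρ h)
    have h2 := Real.cosh_pos (H22.lin ρ h)
    constructor <;> nlinarith

lemma Gr.cos (ρ : V → ℝ) : Gr fun h => Real.cos (H22.lin ρ h) :=
  Gr.of_bdd 1 fun _ => Real.abs_cos_le_one _

lemma Gr.sin (ρ : V → ℝ) : Gr fun h => Real.sin (H22.lin ρ h) :=
  Gr.of_bdd 1 fun _ => Real.abs_sin_le_one _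

/-- nonnegative even weights with all exponential moments -/
structure SG (w : (V → ℤ) → ℝ) : Prop where
  nonneg : ∀ h, 0 ≤ w h
  even : ∀ h, w (-h) = w h
  mom : ∀ t : ℝ, Summable fun h => w h * Real.exp (t * nn h)

lemma SG.sabs {w : (V → ℤ) → ℝ} (hw : SG w) {g : (V → ℤ) → ℝ} (hg : Gr g) :
    Summable fun h => |w h * g h| := by
  obtain ⟨C, t, hC, ht, hb⟩ := hg
  refine Summable.of_nonneg_of_le (fun _ => abs_nonneg _) (fun h => ?_) ((hw.mom t).mul_left C)
  rw [abs_mul, abs_of_nonneg (hw.nonneg h)]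
  calc w h * |g h| ≤ w h * (C * Real.exp (t * nn h)) :=
        mul_le_mul_of_nonneg_left (hb h) (hw.nonneg h)
    _ = _ := by ring

lemma SG.sum {w : (V → ℤ) → ℝ} (hw : SG w) {g : (V → ℤ) → ℝ} (hg : Gr g) :
    Summable fun h => w h * g h := (hw.sabs hg).of_abs

/-- unnormalised mean -/
noncomputable def MM (w f : (V → ℤ) → ℝ) : ℝ := ∑' h, w h * f h

/-- the bilinear form of the duplicated system -/
noncomputable def BB (w w' A B : (V → ℤ) → ℝ) : ℝ :=
  ∑' x : (V → ℤ) × (V → ℤ), w x.1 * w' x.2 * (A (x.1 + x.2) * B (x.1 - x.2))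

lemma BB_sum {w w' A B : (V → ℤ) → ℝ} (hw : SG w) (hw' : SG w') (hA : Gr A) (hB : Gr B) :
    Summable fun x : (V → ℤ) × (V → ℤ) =>
      w x.1 * w' x.2 * (A (x.1 + x.2) * B (x.1 - x.2)) := by
  obtain ⟨C, t, hC, ht, hb⟩ := hA
  obtain ⟨C', t', hC', ht', hb'⟩ := hB
  have h1 := (hw.mom (t + t')).mul_of_nonneg (hw'.mom (t + t'))
    (fun h => mul_nonneg (hw.nonneg h) (Real.exp_pos _).le)
    (fun h => mul_nonneg (hw'.nonneg h) (Real.exp_pos _).le)
  refine Summable.of_norm_bounded (h1.mul_left (C * C')) fun x => ?_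
  rw [Real.norm_eq_abs, abs_mul, abs_mul, abs_mul, abs_of_nonneg (hw.nonneg _),
    abs_of_nonneg (hw'.nonneg _)]
  have e1 : |A (x.1 + x.2)| ≤ C * Real.exp (t * (nn x.1 + nn x.2)) :=
    (hb _).trans (mul_le_mul_of_nonneg_left (Real.exp_le_exp.2
      (mul_le_mul_of_nonneg_left (nn_add _ _) ht)) hC)
  have e2 : |B (x.1 - x.2)| ≤ C' * Real.exp (t' * (nn x.1 + nn x.2)) :=
    (hb' _).trans (mul_le_mul_of_nonneg_left (Real.exp_le_exp.2
      (mul_le_mul_of_nonneg_left (nn_sub _ _) ht')) hC')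
  calc w x.1 * w' x.2 * (|A (x.1 + x.2)| * |B (x.1 - x.2)|)
      ≤ w x.1 * w' x.2 * ((C * Real.exp (t * (nn x.1 + nn x.2))) *
        (C' * Real.exp (t' * (nn x.1 + nn x.2)))) :=
        mul_le_mul_of_nonneg_left (mul_le_mul e1 e2 (abs_nonneg _) (by positivity))
          (mul_nonneg (hw.nonneg _) (hw'.nonneg _))
    _ = C * C' * (w x.1 * Real.exp ((t + t') * nn x.1) *
        (w' x.2 * Real.exp ((t + t') * nn x.2))) := by
        have : Real.exp (t * (nn x.1 + nn x.2)) * Real.exp (t' * (nn x.1 + nn x.2)) =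
            Real.exp ((t + t') * nn x.1) * Real.exp ((t + t') * nn x.2) := by
          rw [← Real.exp_add, ← Real.exp_add]
          congr 1
          ring
        calc _ = C * C' * (w x.1 * w' x.2) * (Real.exp (t * (nn x.1 + nn x.2)) *
              Real.exp (t' * (nn x.1 + nn x.2))) := by ring
          _ = _ := by rw [this]; ring

/-- evaluation of the form: one product -/
lemma BB_eq1 {w w' A B f k : (V → ℤ) → ℝ} (hw : SG w) (hw' : SG w') (hf : Gr f) (hk : Gr k)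
    (h : ∀ x y, A (x + y) * B (x - y) = f x * k y) : BB w w' A B = MM w f * MM w' k := by
  have h1 := hasSum_mul_pair (hw.sabs hf) (hw'.sabs hk)
  unfold BB MM
  rw [← h1.tsum_eq]
  exact tsum_congr fun x => by rw [h]; ring

/-- evaluation of the form: two products -/
lemma BB_eq2 {w w' A B f k f' k' : (V → ℤ) → ℝ} (hw : SG w) (hw' : SG w') (hf : Gr f)
    (hk : Gr k) (hf' : Gr f') (hk' : Gr k')
    (h : ∀ x y, A (x + y) * B (x - y) = f x * k y + f' x * k' y) :
    BB w w' A B = MM w f * MM w' k + MM w f' * MM w' k' := by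
  have h1 := (hasSum_mul_pair (hw.sabs hf) (hw'.sabs hk)).add
    (hasSum_mul_pair (hw.sabs hf') (hw'.sabs hk'))
  unfold BB MM
  rw [← h1.tsum_eq]
  exact tsum_congr fun x => by rw [h]; ring

/-- the comparison of weights -/
def Gle (w w' : (V → ℤ) → ℝ) : Prop := ∀ g, Gr g → |BB w w' g g| ≤ BB w' w g g

lemma Gle.pos {w w' : (V → ℤ) → ℝ} (h : Gle w w') {g : (V → ℤ) → ℝ} (hg : Gr g) :
    0 ≤ BB w' w g g := (abs_nonneg _).trans (h g hg)

lemma BB_lin_left {w w' A A' B : (V → ℤ) → ℝ} (hw : SG w) (hw' : SG w') (hA : Gr A)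
    (hA' : Gr A') (hB : Gr B) (x : ℝ) :
    BB w w' (fun h => x * A h + A' h) B = x * BB w w' A B + BB w w' A' B := by
  unfold BB
  rw [← tsum_mul_left, ← ((BB_sum hw hw' hA hB).mul_left x).tsum_add (BB_sum hw hw' hA' hB)]
  exact tsum_congr fun y => by ring

lemma BB_lin_right {w w' A B B' : (V → ℤ) → ℝ} (hw : SG w) (hw' : SG w') (hA : Gr A)
    (hB : Gr B) (hB' : Gr B') (x : ℝ) :
    BB w w' A (fun h => x * B h + B' h) = x * BB w w' A B + BB w w' A B' := by
  unfold BB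
  rw [← tsum_mul_left, ← ((BB_sum hw hw' hA hB).mul_left x).tsum_add (BB_sum hw hw' hA hB')]
  exact tsum_congr fun y => by ring

/-- Cauchy–Schwarz for the form -/
theorem cs_form {w A B : (V → ℤ) → ℝ} (hw : SG w) (hG : Gle w w) (hA : Gr A) (hB : Gr B) :
    (BB w w A B + BB w w B A) ^ 2 ≤ 4 * (BB w w A A * BB w w B B) := by
  have quad : ∀ x : ℝ, 0 ≤ BB w w A A * (x * x) + (BB w w A B + BB w w B A) * x + BB w w B B := by
    intro x
    have h1 := hG.pos ((hA.const_mul x).add hB)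
    have h2 : BB w w (fun h => x * A h + B h) (fun h => x * A h + B h) =
        BB w w A A * (x * x) + (BB w w A B + BB w w B A) * x + BB w w B B := by
      rw [BB_lin_left hw hw hA hB ((hA.const_mul x).add hB), BB_lin_right hw hw hA hA hB,
        BB_lin_right hw hw hB hA hB]
      ring
    rw [h2] at h1
    exact h1
  have h3 := discrim_le_zero quad
  unfold discrim at h3
  linarith

/-! ### charged sectors with real tilts -/

variable {P : Type}

open Classical in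
/-- `exp (ρ.h)` on the heights with the values `ζ` at the sites `c` -/
noncomputable def El (c : P → V) (ρ : V → ℝ) (ζ : P → ℤ) (h : V → ℤ) : ℝ :=
  if ∀ p, h (c p) = ζ p then Real.exp (lin ρ h) else 0

open Classical in
lemma Gr.El (c : P → V) (ρ : V → ℝ) (ζ : P → ℤ) : Gr (El c ρ ζ) :=
  (Gr.exp_lin ρ).ite fun h => ∀ p, h (c p) = ζ p

lemma El_mul (c : P → V) (u v : V → ℝ) (a b : P → ℤ) (x y : V → ℤ) :
    El c u (a + b) (x + y) * El c v (a - b) (x - y) = El c (u + v) a x * El c (u - v) b y := by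
  classical
  unfold El
  by_cases h : (∀ p, x (c p) = a p) ∧ ∀ p, y (c p) = b p
  · rw [if_pos (fun p => by rw [Pi.add_apply, Pi.add_apply, h.1, h.2]),
      if_pos (fun p => by rw [Pi.sub_apply, Pi.sub_apply, h.1, h.2]), if_pos h.1, if_pos h.2,
      ← Real.exp_add, ← Real.exp_add]
    congr 1
    rw [lin_add, lin_sub, lin_add_left, lin_sub_left]
    ring
  · have h1 : ¬ ((∀ p, (x + y) (c p) = (a + b) p) ∧ ∀ p, (x - y) (c p) = (a - b) p) := by
      rintro ⟨h2, h3⟩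
      refine h ⟨fun p => ?_, fun p => ?_⟩ <;>
      · have h4 := h2 p
        have h5 := h3 p
        simp only [Pi.add_apply, Pi.sub_apply] at h4 h5
        omega
    have z1 : (if ∀ p, (x + y) (c p) = (a + b) p then Real.exp (lin u (x + y)) else 0) *
        (if ∀ p, (x - y) (c p) = (a - b) p then Real.exp (lin v (x - y)) else 0) = 0 := by
      by_cases h6 : ∀ p, (x + y) (c p) = (a + b) p
      · rw [if_neg (fun h7 => h1 ⟨h6, h7⟩), mul_zero]
      · rw [if_neg h6, zero_mul]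
    have z2 : (if ∀ p, x (c p) = a p then Real.exp (lin (u + v) x) else 0) *
        (if ∀ p, y (c p) = b p then Real.exp (lin (u - v) y) else 0) = 0 := by
      by_cases h6 : ∀ p, x (c p) = a p
      · rw [if_neg (fun h7 => h ⟨h6, h7⟩), mul_zero]
      · rw [if_neg h6, zero_mul]
    rw [z1, z2]

/-- partition function with the values `ζ` at the sites `c` and the real tilt `ρ` -/
noncomputable def Zm (w : (V → ℤ) → ℝ) (c : P → V) (ρ : V → ℝ) (ζ : P → ℤ) : ℝ :=
  MM w (El c ρ ζ)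

lemma El_neg (c : P → V) (ρ : V → ℝ) (ζ : P → ℤ) (h : V → ℤ) :
    El c (-ρ) (-ζ) (-h) = El c ρ ζ h := by
  classical
  unfold El
  rw [lin_neg, lin_neg_left, neg_neg]
  by_cases h1 : ∀ p, h (c p) = ζ p
  · rw [if_pos h1, if_pos fun p => by rw [Pi.neg_apply, Pi.neg_apply, h1]]
  · rw [if_neg h1, if_neg fun h2 => h1 fun p => by
      have := h2 p
      simp only [Pi.neg_apply] at this
      omega]

lemma MM_neg {w : (V → ℤ) → ℝ} (hw : ∀ h, w (-h) = w h) (f : (V → ℤ) → ℝ) :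
    MM w (fun h => f (-h)) = MM w f := by
  unfold MM
  rw [← (Equiv.neg (V → ℤ)).tsum_eq]
  exact tsum_congr fun h => by simp only [Equiv.neg_apply, neg_neg, hw]

lemma Zm_neg {w : (V → ℤ) → ℝ} (hw : SG w) (c : P → V) (ρ : V → ℝ) (ζ : P → ℤ) :
    Zm w c (-ρ) (-ζ) = Zm w c ρ ζ := by
  unfold Zm
  rw [← MM_neg hw.even]
  unfold MM
  exact tsum_congr fun h => by simp only [El_neg]

lemma Zm_nonneg {w : (V → ℤ) → ℝ} (hw : SG w) (c : P → V) (ρ : V → ℝ) (ζ : P → ℤ) :
    0 ≤ Zm w c ρ ζ := by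
  classical
  refine tsum_nonneg fun h => mul_nonneg (hw.nonneg h) ?_
  unfold El
  split_ifs
  · exact (Real.exp_pos _).le
  · exact le_rfl

/-- **Four replica inequality**, any Ginibre weight, charges and real tilts. -/
theorem four_m {w : (V → ℤ) → ℝ} (hw : SG w) (hG : Gle w w) (c : P → V) (ρ σ : V → ℝ)
    (ζ ξ : P → ℤ) :
    (Zm w c ρ ζ * Zm w c σ ξ) ^ 2 ≤
      Zm w c (ρ + σ) (ζ + ξ) * Zm w c (ρ - σ) (ζ - ξ) * Zm w c 0 0 ^ 2 := by
  set u : V → ℝ := (1 / 2 : ℝ) • (ρ + σ) with hu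
  set v : V → ℝ := (1 / 2 : ℝ) • (ρ - σ) with hv
  have uu : u + u = ρ + σ := by
    funext x; simp only [hu, Pi.add_apply, Pi.smul_apply, smul_eq_mul]; ring
  have u0 : u - u = 0 := sub_self u
  have vv : v + v = ρ - σ := by
    funext x; simp only [hv, Pi.add_apply, Pi.sub_apply, Pi.smul_apply, smul_eq_mul]; ring
  have uv : u + v = ρ := by
    funext x
    simp only [hu, hv, Pi.add_apply, Pi.sub_apply, Pi.smul_apply, smul_eq_mul]; ring
  have uv' : u - v = σ := by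
    funext x
    simp only [hu, hv, Pi.add_apply, Pi.sub_apply, Pi.smul_apply, smul_eq_mul]; ring
  have vu : v + u = ρ := by rw [add_comm, uv]
  have vu' : v - u = -σ := by rw [← neg_sub, uv']
  have A := Gr.El c u (ζ + ξ)
  have B := Gr.El c v (ζ - ξ)
  have key := fun (a b : P → ℤ) (x y : V → ℝ) =>
    BB_eq1 hw hw (Gr.El c (x + y) a) (Gr.El c (x - y) b) (fun h k => El_mul c x y a b h k)
  have k1 : BB w w (El c u (ζ + ξ)) (El c u (ζ + ξ)) = Zm w c (ρ + σ) (ζ + ξ) * Zm w c 0 0 := by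
    have := key (ζ + ξ) 0 u u
    rw [add_zero, sub_zero, uu, u0] at this
    exact this
  have k2 : BB w w (El c v (ζ - ξ)) (El c v (ζ - ξ)) = Zm w c (ρ - σ) (ζ - ξ) * Zm w c 0 0 := by
    have := key (ζ - ξ) 0 v v
    rw [add_zero, sub_zero, vv, sub_self] at this
    exact this
  have k3 : BB w w (El c u (ζ + ξ)) (El c v (ζ - ξ)) = Zm w c ρ ζ * Zm w c σ ξ := by
    have := key ζ ξ u v
    rw [uv, uv'] at this
    exact this
  have k4 : BB w w (El c v (ζ - ξ)) (El c u (ζ + ξ)) = Zm w c ρ ζ * Zm w c σ ξ := by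
    have := key ζ (-ξ) v u
    rw [vu, vu', ← sub_eq_add_neg, sub_neg_eq_add] at this
    rw [this, ← Zm_neg hw c σ ξ]
    rfl
  have h := cs_form hw hG A B
  rw [k1, k2, k3, k4] at h
  nlinarith

end cls

end Vale.Agent.P159.TM.H22
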