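import Vale.Agent.P159.TM.H22.Gle

/-!
Consequences of the Ginibre classes: monotonicity of second and exponential moments, covariance
inequalities, `Cov (X², Y²) ≥ 2 E[XY]²`, `4 L(ρ) ≤ L(2ρ)`, `exp (Var / 2) ≤ E exp`, and the
weights `∏ wI · exp (- ∑ m h² / 2)`.
-/

open MeasureTheory Filter Topology

namespace Vale.Agent.P159.TM.H22

open Vale.Agent.P159 Vale.Agent.P159.H353 Vale.Agent.P159.R2.H254 Vale.Agent.P159.T1.H934

section mono

variable {V : Type} [Fintype V] {w w' : (V → ℤ) → ℝ}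

lemma lin_half_add (ρ : V → ℝ) (x y : V → ℤ) :
    lin ((1 / 2 : ℝ) • ρ) (x + y) = lin ρ x / 2 + lin ρ y / 2 := by
  rw [lin_smul, lin_add]; ring

lemma lin_half_sub (ρ : V → ℝ) (x y : V → ℤ) :
    lin ((1 / 2 : ℝ) • ρ) (x - y) = lin ρ x / 2 - lin ρ y / 2 := by
  rw [lin_smul, lin_sub]; ring

lemma sinh_sinh (a b : ℝ) :
    Real.sinh (a / 2 + b / 2) * Real.sinh (a / 2 - b / 2) = (Real.cosh a - Real.cosh b) / 2 := by
  have h1 := Real.cosh_add (a / 2 + b / 2) (a / 2 - b / 2)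
  have h2 := Real.cosh_sub (a / 2 + b / 2) (a / 2 - b / 2)
  rw [show a / 2 + b / 2 + (a / 2 - b / 2) = a by ring] at h1
  rw [show a / 2 + b / 2 - (a / 2 - b / 2) = b by ring] at h2
  linarith

lemma cosh_cosh (a b : ℝ) :
    Real.cosh (a / 2 + b / 2) * Real.cosh (a / 2 - b / 2) = (Real.cosh a + Real.cosh b) / 2 := by
  have h1 := Real.cosh_add (a / 2 + b / 2) (a / 2 - b / 2)
  have h2 := Real.cosh_sub (a / 2 + b / 2) (a / 2 - b / 2)
  rw [show a / 2 + b / 2 + (a / 2 - b / 2) = a by ring] at h1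
  rw [show a / 2 + b / 2 - (a / 2 - b / 2) = b by ring] at h2
  linarith

lemma sin_sin (a b : ℝ) :
    Real.sin (a / 2 + b / 2) * Real.sin (a / 2 - b / 2) = (Real.cos b - Real.cos a) / 2 := by
  have h1 := Real.cos_add (a / 2 + b / 2) (a / 2 - b / 2)
  have h2 := Real.cos_sub (a / 2 + b / 2) (a / 2 - b / 2)
  rw [show a / 2 + b / 2 + (a / 2 - b / 2) = a by ring] at h1
  rw [show a / 2 + b / 2 - (a / 2 - b / 2) = b by ring] at h2
  linarith

lemma cos_cos (a b : ℝ) :
    Real.cos (a / 2 + b / 2) * Real.cos (a / 2 - b / 2) = (Real.cos a + Real.cos b) / 2 := by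
  have h1 := Real.cos_add (a / 2 + b / 2) (a / 2 - b / 2)
  have h2 := Real.cos_sub (a / 2 + b / 2) (a / 2 - b / 2)
  rw [show a / 2 + b / 2 + (a / 2 - b / 2) = a by ring] at h1
  rw [show a / 2 + b / 2 - (a / 2 - b / 2) = b by ring] at h2
  linarith

lemma MM_mul_left (w f : (V → ℤ) → ℝ) (c : ℝ) : MM w (fun h => c * f h) = c * MM w f := by
  unfold MM
  rw [← tsum_mul_left]
  exact tsum_congr fun h => by ring

lemma MM_nonneg (hw : SG w) {f : (V → ℤ) → ℝ} (hf : ∀ h, 0 ≤ f h) : 0 ≤ MM w f :=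
  tsum_nonneg fun h => mul_nonneg (hw.nonneg h) (hf h)

lemma MM_add (hw : SG w) {f g : (V → ℤ) → ℝ} (hf : Gr f) (hg : Gr g) :
    MM w (fun h => f h + g h) = MM w f + MM w g := by
  unfold MM
  rw [← (hw.sum hf).tsum_add (hw.sum hg)]
  exact tsum_congr fun h => by ring

lemma MM_odd (hw : SG w) {f : (V → ℤ) → ℝ} (hf : ∀ h, f (-h) = -f h) : MM w f = 0 := by
  have h1 := MM_neg (w := w) hw.even f
  have h2 : MM w (fun h => f (-h)) = -MM w f := by
    unfold MM
    rw [← tsum_neg]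
    exact tsum_congr fun h => by simp only [hf]; ring
  linarith

/-- `∑ w exp = ∑ w cosh` -/
lemma MM_exp (hw : SG w) (ρ : V → ℝ) :
    MM w (fun h => Real.exp (lin ρ h)) = MM w fun h => Real.cosh (lin ρ h) := by
  have h1 := MM_neg (w := w) hw.even fun h => Real.exp (lin ρ h)
  have h2 : MM w (fun h => Real.cosh (lin ρ h)) =
      MM w (fun h => (1 / 2) * Real.exp (lin ρ h) + (1 / 2) * Real.exp (lin ρ (-h))) := by
    unfold MM
    exact tsum_congr fun h => by simp only [Real.cosh_eq, lin_neg]; ring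
  have g2 : Gr fun h : V → ℤ => Real.exp (lin ρ (-h)) := by
    have : (fun h : V → ℤ => Real.exp (lin ρ (-h))) = fun h => Real.exp (lin (-ρ) h) := by
      funext h; rw [lin_neg, lin_neg_left]
    rw [this]
    exact Gr.exp_lin _
  rw [h2, MM_add hw ((Gr.exp_lin ρ).const_mul _) (g2.const_mul _), MM_mul_left, MM_mul_left, h1]
  ring

/-- **Monotonicity of exponential moments.** -/
theorem mono_cosh_m (hw : SG w) (hw' : SG w') (hG : Gle w w') (ρ : V → ℝ) :
    MM w (fun h => Real.cosh (lin ρ h)) * MM w' (fun _ => 1) ≤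
      MM w' (fun h => Real.cosh (lin ρ h)) * MM w (fun _ => 1) := by
  have h1 := hG.pos (Gr.sinh ((1 / 2 : ℝ) • ρ))
  have h2 := BB_eq2 (w := w') (w' := w) hw' hw
    (A := fun h => Real.sinh (lin ((1 / 2 : ℝ) • ρ) h))
    (B := fun h => Real.sinh (lin ((1 / 2 : ℝ) • ρ) h))
    (f := fun h => Real.cosh (lin ρ h)) (k := fun _ => 1 / 2)
    (f' := fun _ => -(1 / 2)) (k' := fun h => Real.cosh (lin ρ h))
    (Gr.cosh ρ) (Gr.const _) (Gr.const _) (Gr.cosh ρ) (fun x y => by
      rw [lin_half_add, lin_half_sub, sinh_sinh]; ring)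
  have e1 : MM w (fun _ => (1 / 2 : ℝ)) = 1 / 2 * MM w fun _ => 1 := by
    rw [← MM_mul_left]; simp
  have e2 : MM w' (fun _ => (-(1 / 2) : ℝ)) = -(1 / 2) * MM w' fun _ => 1 := by
    rw [← MM_mul_left]; simp
  rw [e1, e2] at h2
  rw [h2] at h1
  linarith

/-- **Monotonicity of characteristic functions.** -/
theorem mono_cos_m (hw : SG w) (hw' : SG w') (hG : Gle w w') (ρ : V → ℝ) :
    MM w' (fun h => Real.cos (lin ρ h)) * MM w (fun _ => 1) ≤
      MM w (fun h => Real.cos (lin ρ h)) * MM w' (fun _ => 1) := by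
  have h1 := hG.pos (Gr.sin ((1 / 2 : ℝ) • ρ))
  have h2 := BB_eq2 (w := w') (w' := w) hw' hw
    (A := fun h => Real.sin (lin ((1 / 2 : ℝ) • ρ) h))
    (B := fun h => Real.sin (lin ((1 / 2 : ℝ) • ρ) h))
    (f := fun h => Real.cos (lin ρ h)) (k := fun _ => -(1 / 2))
    (f' := fun _ => 1 / 2) (k' := fun h => Real.cos (lin ρ h))
    (Gr.cos ρ) (Gr.const _) (Gr.const _) (Gr.cos ρ) (fun x y => by
      rw [lin_half_add, lin_half_sub, sin_sin]; ring)
  have e1 : MM w (fun _ => (-(1 / 2) : ℝ)) = -(1 / 2) * MM w fun _ => 1 := by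
    rw [← MM_mul_left]; simp
  have e2 : MM w' (fun _ => (1 / 2 : ℝ)) = 1 / 2 * MM w' fun _ => 1 := by
    rw [← MM_mul_left]; simp
  rw [e1, e2] at h2
  rw [h2] at h1
  linarith

/-- **Monotonicity of second moments.** -/
theorem mono_sq_m (hw : SG w) (hw' : SG w') (hG : Gle w w') (ρ : V → ℝ) :
    MM w (fun h => lin ρ h ^ 2) * MM w' (fun _ => 1) ≤
      MM w' (fun h => lin ρ h ^ 2) * MM w (fun _ => 1) := by
  have gsq : Gr fun h : V → ℤ => lin ρ h ^ 2 := by
    have := (Gr.lin ρ).mul (Gr.lin ρ)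
    simpa only [sq] using this
  have h1 := hG.pos (Gr.lin ρ)
  have h2 := BB_eq2 (w := w') (w' := w) hw' hw (A := fun h => lin ρ h) (B := fun h => lin ρ h)
    (f := fun h => lin ρ h ^ 2) (k := fun _ => 1)
    (f' := fun _ => -1) (k' := fun h => lin ρ h ^ 2)
    gsq (Gr.const _) (Gr.const _) gsq (fun x y => by rw [lin_add, lin_sub]; ring)
  have e2 : MM w' (fun _ => (-1 : ℝ)) = -(MM w' fun _ => 1) := by
    have := MM_mul_left w' (fun _ => (1 : ℝ)) (-1)
    simpa using this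
  rw [e2] at h2
  rw [h2] at h1
  linarith

/-- `E[cosh · cos] ≤ E cosh · E cos` -/
theorem cosh_cos_le (hw : SG w) (hG : Gle w w) (ρ σ : V → ℝ) :
    MM w (fun h => Real.cosh (lin ρ h) * Real.cos (lin σ h)) * MM w (fun _ => 1) ≤
      MM w (fun h => Real.cosh (lin ρ h)) * MM w (fun h => Real.cos (lin σ h)) := by
  have gg := (Gr.sinh ((1 / 2 : ℝ) • ρ)).mul (Gr.sin ((1 / 2 : ℝ) • σ))
  have h1 := hG.pos gg
  have gc := (Gr.cosh ρ).mul (Gr.cos σ)
  have hs1 := hasSum_mul_pair (hw.sabs (Gr.cosh ρ)) (hw.sabs (Gr.cos σ))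
  have hs2 := hasSum_mul_pair (hw.sabs gc) (hw.sabs (Gr.const 1))
  have hs3 := hasSum_mul_pair (hw.sabs (Gr.const 1)) (hw.sabs gc)
  have hs4 := hasSum_mul_pair (hw.sabs (Gr.cos σ)) (hw.sabs (Gr.cosh ρ))
  have hs := (((hs1.sub hs2).sub hs3).add hs4).mul_left (1 / 4)
  have e : BB w w (fun h => Real.sinh (lin ((1 / 2 : ℝ) • ρ) h) *
      Real.sin (lin ((1 / 2 : ℝ) • σ) h)) (fun h => Real.sinh (lin ((1 / 2 : ℝ) • ρ) h) *
      Real.sin (lin ((1 / 2 : ℝ) • σ) h)) = 1 / 4 *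
      (MM w (fun h => Real.cosh (lin ρ h)) * MM w (fun h => Real.cos (lin σ h)) -
       MM w (fun h => Real.cosh (lin ρ h) * Real.cos (lin σ h)) * MM w (fun _ => 1) -
       MM w (fun _ => 1) * MM w (fun h => Real.cosh (lin ρ h) * Real.cos (lin σ h)) +
       MM w (fun h => Real.cos (lin σ h)) * MM w (fun h => Real.cosh (lin ρ h))) := by
    unfold BB
    unfold MM
    rw [← hs.tsum_eq]
    refine tsum_congr fun x => ?_
    have e1 := sinh_sinh (lin ρ x.1) (lin ρ x.2)
    have e2 := sin_sin (lin σ x.1) (lin σ x.2)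
    simp only [lin_half_add, lin_half_sub]
    calc _ = w x.1 * w x.2 * ((Real.sinh (lin ρ x.1 / 2 + lin ρ x.2 / 2) *
          Real.sinh (lin ρ x.1 / 2 - lin ρ x.2 / 2)) * (Real.sin (lin σ x.1 / 2 + lin σ x.2 / 2) *
          Real.sin (lin σ x.1 / 2 - lin σ x.2 / 2))) := by ring
      _ = _ := by rw [e1, e2]; ring
  rw [e] at h1
  linarith

/-- `2 E[XY]² ≤ Cov (X², Y²)` -/
theorem cov_sq_m (hw : SG w) (hG : Gle w w) (ρ σ : V → ℝ) :
    2 * MM w (fun h => lin ρ h * lin σ h) ^ 2 ≤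
      MM w (fun h => lin ρ h ^ 2 * lin σ h ^ 2) * MM w (fun _ => 1) -
        MM w (fun h => lin ρ h ^ 2) * MM w (fun h => lin σ h ^ 2) := by
  have gr := Gr.lin ρ
  have gs := Gr.lin σ
  have grs := gr.mul gs
  have gr2 : Gr fun h : V → ℤ => lin ρ h ^ 2 := by simpa only [sq] using gr.mul gr
  have gs2 : Gr fun h : V → ℤ => lin σ h ^ 2 := by simpa only [sq] using gs.mul gs
  have g22 := gr2.mul gs2
  have zr : MM w (fun h => lin ρ h) = 0 := MM_odd hw fun h => lin_neg ρ h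
  have k1 : BB w w (fun h => lin ρ h * lin σ h) (fun h => lin ρ h * lin σ h) =
      2 * (MM w (fun h => lin ρ h ^ 2 * lin σ h ^ 2) * MM w (fun _ => 1) -
        MM w (fun h => lin ρ h ^ 2) * MM w (fun h => lin σ h ^ 2)) := by
    have hs1 := hasSum_mul_pair (hw.sabs g22) (hw.sabs (Gr.const 1))
    have hs2 := hasSum_mul_pair (hw.sabs (Gr.const 1)) (hw.sabs g22)
    have hs3 := hasSum_mul_pair (hw.sabs gr2) (hw.sabs gs2)
    have hs4 := hasSum_mul_pair (hw.sabs gs2) (hw.sabs gr2)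
    have hs := ((hs1.add hs2).sub hs3).sub hs4
    have e : BB w w (fun h => lin ρ h * lin σ h) (fun h => lin ρ h * lin σ h) =
        MM w (fun h => lin ρ h ^ 2 * lin σ h ^ 2) * MM w (fun _ => 1) +
        MM w (fun _ => 1) * MM w (fun h => lin ρ h ^ 2 * lin σ h ^ 2) -
        MM w (fun h => lin ρ h ^ 2) * MM w (fun h => lin σ h ^ 2) -
        MM w (fun h => lin σ h ^ 2) * MM w (fun h => lin ρ h ^ 2) := by
      unfold BB MM
      rw [← hs.tsum_eq]
      refine tsum_congr fun x => ?_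
      simp only [lin_add, lin_sub]
      ring
    rw [e]
    ring
  have k2 : BB w w (fun h => lin ρ h * lin σ h) (fun _ => 1) =
      2 * (MM w (fun h => lin ρ h * lin σ h) * MM w (fun _ => 1)) := by
    have hs1 := hasSum_mul_pair (hw.sabs grs) (hw.sabs (Gr.const 1))
    have hs2 := hasSum_mul_pair (hw.sabs (Gr.const 1)) (hw.sabs grs)
    have hs3 := hasSum_mul_pair (hw.sabs gr) (hw.sabs gs)
    have hs4 := hasSum_mul_pair (hw.sabs gs) (hw.sabs gr)
    have hs := ((hs1.add hs2).add hs3).add hs4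
    have e : BB w w (fun h => lin ρ h * lin σ h) (fun _ => 1) =
        MM w (fun h => lin ρ h * lin σ h) * MM w (fun _ => 1) +
        MM w (fun _ => 1) * MM w (fun h => lin ρ h * lin σ h) +
        MM w (fun h => lin ρ h) * MM w (fun h => lin σ h) +
        MM w (fun h => lin σ h) * MM w (fun h => lin ρ h) := by
      unfold BB MM
      rw [← hs.tsum_eq]
      refine tsum_congr fun x => ?_
      simp only [lin_add]
      ring
    rw [e, zr]
    ring
  have k3 : BB w w (fun _ => 1) (fun h => lin ρ h * lin σ h) =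
      2 * (MM w (fun h => lin ρ h * lin σ h) * MM w (fun _ => 1)) := by
    have hs1 := hasSum_mul_pair (hw.sabs grs) (hw.sabs (Gr.const 1))
    have hs2 := hasSum_mul_pair (hw.sabs (Gr.const 1)) (hw.sabs grs)
    have hs3 := hasSum_mul_pair (hw.sabs gr) (hw.sabs gs)
    have hs4 := hasSum_mul_pair (hw.sabs gs) (hw.sabs gr)
    have hs := ((hs1.add hs2).sub hs3).sub hs4
    have e : BB w w (fun _ => 1) (fun h => lin ρ h * lin σ h) =
        MM w (fun h => lin ρ h * lin σ h) * MM w (fun _ => 1) +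
        MM w (fun _ => 1) * MM w (fun h => lin ρ h * lin σ h) -
        MM w (fun h => lin ρ h) * MM w (fun h => lin σ h) -
        MM w (fun h => lin σ h) * MM w (fun h => lin ρ h) := by
      unfold BB MM
      rw [← hs.tsum_eq]
      refine tsum_congr fun x => ?_
      simp only [lin_sub]
      ring
    rw [e, zr]
    ring
  have k4 : BB w w (fun _ => (1 : ℝ)) (fun _ => 1) = MM w (fun _ => 1) * MM w (fun _ => 1) :=
    BB_eq1 hw hw (Gr.const 1) (Gr.const 1) fun x y => rfl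
  have h := cs_form hw hG grs (Gr.const 1)
  rw [k1, k2, k3, k4] at h
  set Z := MM w (fun _ => 1) with hZ
  set C := MM w (fun h => lin ρ h * lin σ h) with hC
  set R := MM w (fun h => lin ρ h ^ 2 * lin σ h ^ 2) * Z -
    MM w (fun h => lin ρ h ^ 2) * MM w (fun h => lin σ h ^ 2) with hR
  have hZ0 : 0 ≤ Z := MM_nonneg hw fun _ => zero_le_one
  rcases hZ0.eq_or_lt with h0 | h0
  · -- all weights vanish
    have hall : ∀ x, w x = 0 := by
      have hs := hw.sum (Gr.const (1 : ℝ))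
      have h5 : ∑' x, w x * 1 = 0 := by
        have : Z = ∑' x, w x * 1 := rfl
        rw [← this, ← h0]
      intro x
      have h6 := (hasSum_zero_iff_of_nonneg (fun x => mul_nonneg (hw.nonneg x) zero_le_one)).1
        (h5 ▸ hs.hasSum)
      have h7 := congrFun h6 x
      simpa using h7
    have z : ∀ f : (V → ℤ) → ℝ, MM w f = 0 := fun f => by
      unfold MM
      simp [hall]
    have hC0 : C = 0 := z _
    have hR0 : R = 0 := by
      rw [hR, z, z]
      ring
    rw [hC0, hR0]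
    norm_num
  · have h8 : (2 * (C * Z) + 2 * (C * Z)) ^ 2 = 16 * C ^ 2 * (Z * Z) := by ring
    have h9 : 4 * (2 * R * (Z * Z)) = 8 * R * (Z * Z) := by ring
    rw [h8, h9] at h
    have hZZ : 0 < Z * Z := mul_pos h0 h0
    have h10 := le_of_mul_le_mul_right h hZZ
    linarith

end mono

end Vale.Agent.P159.TM.H22
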